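import Vale.Agent.P238.Defs
import Vale.Agent.P238.CrtMain
import Vale.Agent.P238.UpMain

namespace Vale.Agent.Results.P238.Growth

open Vale.Agent.P238

theorem result : ∃ c C : ℝ, 0 < c ∧ ∃ n₀ : ℕ, ∀ n : ℕ, n₀ ≤ n →
    Real.exp (c * Real.sqrt (Real.log n * Real.log (Real.log n))) ≤ c1 (binED n) ∧
      c1 (binED n) ≤ Real.exp (C * Real.sqrt (Real.log n * Real.log (Real.log n))) := by
  obtain ⟨N, hN⟩ : ∃ N : ℕ, 10 ≤ N := ⟨_, le_rfl⟩
  exact ⟨1 / 100, 30, by norm_num, max (2 ^ (29 * N * 4 ^ N)) (2 ^ 16), fun n hn =>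
    ⟨Crt.lower_bound N n hN (le_of_max_le_left hn), Up.upper_bound n (le_of_max_le_right hn)⟩⟩

end Vale.Agent.Results.P238.Growth
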