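import Vale.Agent.P238.Defs
import Vale.Agent.P238.Main

namespace Vale.Agent.Results.P238.LowerBound

open Vale.Agent.P238

theorem result : ∃ c : ℝ, 0 < c ∧ ∃ n₀ : ℕ, ∀ n : ℕ, n₀ ≤ n →
    Real.exp (c * Real.sqrt (Real.log n)) ≤ c1 (binED n) := by
  obtain ⟨M, hM⟩ : ∃ M : ℕ, 20004 ≤ M := ⟨_, le_rfl⟩
  exact ⟨1 / 10, by norm_num, 2 ^ (M ^ 2), fun n hn => lower_bound M n hM hn⟩

end Vale.Agent.Results.P238.LowerBound
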