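import Vale.Agent.P238.Defs
import Vale.Agent.P238.CrtMain

namespace Vale.Agent.Results.P238.Matching

open Vale.Agent.P238

theorem result : ∃ c : ℝ, 0 < c ∧ ∃ n₀ : ℕ, ∀ n : ℕ, n₀ ≤ n →
    Real.exp (c * Real.sqrt (Real.log n * Real.log (Real.log n))) ≤ c1 (binED n) := by
  obtain ⟨N, hN⟩ : ∃ N : ℕ, 10 ≤ N := ⟨_, le_rfl⟩
  exact ⟨1 / 100, by norm_num, 2 ^ (29 * N * 4 ^ N), fun n hn => Crt.lower_bound N n hN hn⟩

end Vale.Agent.Results.P238.Matching
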